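import Vale.Agent.Lib.P154N.D6.L0
import Vale.Agent.Lib.P154N.D6.L1
import Vale.Agent.Lib.P154N.D6.L2
import Vale.Agent.Lib.P154N.D6.L3
import Vale.Agent.Lib.P154N.D6.L4
import Vale.Agent.Lib.P154N.D6.L5
import Vale.Agent.Lib.P154N.D6.L6
import Vale.Agent.Lib.P154N.D6.L7
import Vale.Agent.Lib.P154N.D6.L8
import Vale.Agent.Lib.P154N.D6.L9
import Vale.Agent.Lib.P154N.D6.L10
import Vale.Agent.Lib.P154N.D6.L11
import Vale.Agent.Lib.P154N.D6.L12
import Vale.Agent.Lib.P154N.D6.L13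
import Vale.Agent.Lib.P154N.D6.L14
import Vale.Agent.Lib.P154N.D6.L15
import Vale.Agent.Lib.P154N.D6.L16
import Vale.Agent.Lib.P154N.D6.L17
import Vale.Agent.Lib.P154N.D6.L18
import Vale.Agent.Lib.P154N.D6.L19
import Vale.Agent.Lib.P154N.D6.L20
import Vale.Agent.Lib.P154N.D6.L21
import Vale.Agent.Lib.P154N.D6.L22
import Vale.Agent.Lib.P154N.D6.L23
import Vale.Agent.Lib.P154N.D6.L24
import Vale.Agent.Lib.P154N.D6.L25
import Vale.Agent.Lib.P154N.D6.L26
import Vale.Agent.Lib.P154N.D6.L27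
import Vale.Agent.Lib.P154N.D6.L28
import Vale.Agent.Lib.P154N.D6.L29
import Vale.Agent.Lib.P154N.D6.L30
import Vale.Agent.Lib.P154N.D6.L31
import Vale.Agent.Lib.P154N.D6.L32
import Vale.Agent.Lib.P154N.D6.L33
import Vale.Agent.Lib.P154N.D6.L34
import Vale.Agent.Lib.P154N.D6.L35
import Vale.Agent.Lib.P154N.D6.L36
import Vale.Agent.Lib.P154N.D6.L37
import Vale.Agent.Lib.P154N.D6.L38
import Vale.Agent.Lib.P154N.D6.L39
import Vale.Agent.Lib.P154N.D6.L40
import Vale.Agent.Lib.P154N.D6.L41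
import Vale.Agent.Lib.P154N.D6.L42
import Vale.Agent.Lib.P154N.D6.L43
import Vale.Agent.Lib.P154N.D6.L44
import Vale.Agent.Lib.P154N.D6.L45
import Vale.Agent.Lib.P154N.D6.L46
import Vale.Agent.Lib.P154N.D6.L47
import Vale.Agent.Lib.P154N.D6.L48
import Vale.Agent.Lib.P154N.D6.L49
import Vale.Agent.Lib.P154N.D6.L50
import Vale.Agent.Lib.P154N.D6.L51
import Vale.Agent.Lib.P154N.D6.L52
import Vale.Agent.Lib.P154N.D6.L53
import Vale.Agent.Lib.P154N.D6.L54
import Vale.Agent.Lib.P154N.D6.L55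
import Vale.Agent.Lib.P154N.D6.L56
import Vale.Agent.Lib.P154N.D6.L57
import Vale.Agent.Lib.P154N.D6.L58
import Vale.Agent.Lib.P154N.D6.L59
import Vale.Agent.Lib.P154N.D6.L60
import Vale.Agent.Lib.P154N.D6.L61
import Vale.Agent.Lib.P154N.D6.L62
import Vale.Agent.Lib.P154N.D6.L63
import Vale.Agent.Lib.P154N.D6.L64
import Vale.Agent.Lib.P154N.D6.L65
import Vale.Agent.Lib.P154N.D6.L66
import Vale.Agent.Lib.P154N.D6.L67
import Vale.Agent.Lib.P154N.D6.L68
import Vale.Agent.Lib.P154N.D6.L69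
import Vale.Agent.Lib.P154N.D6.L70
import Vale.Agent.Lib.P154N.D6.L71
import Vale.Agent.Lib.P154N.D6.L72
import Vale.Agent.Lib.P154N.D6.L73
import Vale.Agent.Lib.P154N.D6.L74
import Vale.Agent.Lib.P154N.D6.L75
import Vale.Agent.Lib.P154N.D6.L76
import Vale.Agent.Lib.P154N.D6.L77
import Vale.Agent.Lib.P154N.D6.L78
import Vale.Agent.Lib.P154N.D6.L79
import Vale.Agent.Lib.P154N.D6.L80
import Vale.Agent.Lib.P154N.D6.L81
import Vale.Agent.Lib.P154N.D6.L82
import Vale.Agent.Lib.P154N.D6.L83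
import Vale.Agent.Lib.P154N.D6.L84
import Vale.Agent.Lib.P154N.D6.L85
import Vale.Agent.Lib.P154N.D6.L86
import Vale.Agent.Lib.P154N.D6.L87
import Vale.Agent.Lib.P154N.D6.L88
import Vale.Agent.Lib.P154N.D6.L89
import Vale.Agent.Lib.P154N.D6.L90
import Vale.Agent.Lib.P154N.D6.L91
import Vale.Agent.Lib.P154N.D6.L92
import Vale.Agent.Lib.P154N.D6.L93
import Vale.Agent.Lib.P154N.D6.L94
import Vale.Agent.Lib.P154N.D6.L95
import Vale.Agent.Lib.P154N.D6.L96
import Vale.Agent.Lib.P154N.D6.L97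
import Vale.Agent.Lib.P154N.D6.L98
import Vale.Agent.Lib.P154N.D6.L99
import Vale.Agent.Lib.P154N.D6.L100
import Vale.Agent.Lib.P154N.D6.L101

/-!
# The merge inequalities for the tree with 6 children
-/

namespace Vale.Agent.Lib.P154N.D6

open Vale.Agent.Lib.P154 Vale.Agent.Lib.P154K Vale.Agent.Lib.P154Neg Tp

noncomputable section

/-- The value of the scale. -/
abbrev ss : ℝ := ((9 : ℕ) : ℝ) / ((22 : ℕ) : ℝ)

theorem root2_0 : HoldsN X2 (chamberN 9 22) (chamberN 9 22) :=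
  (HoldsN.splitA (HoldsN.splitB (HoldsN.splitA (HoldsN.splitA (HoldsN.splitB (HoldsN.splitB l0 l1) l2) (HoldsN.splitB (HoldsN.splitB l3 l4) l5)) (HoldsN.splitB (HoldsN.splitB l6 l7) (HoldsN.splitA (HoldsN.splitB l8 l9) (HoldsN.splitA l10 l11)))) (HoldsN.splitB l12 (HoldsN.splitA (HoldsN.splitA (HoldsN.splitB (HoldsN.splitA (HoldsN.splitB l13 l14) (HoldsN.splitB l15 l16)) l17) (HoldsN.splitB (HoldsN.splitB l18 (HoldsN.splitA (HoldsN.splitA l19 l20) l21)) l22)) (HoldsN.splitB (HoldsN.splitA l23 (HoldsN.splitA (HoldsN.splitB l24 l25) l26)) l27)))) (HoldsN.splitA (HoldsN.splitB (HoldsN.splitB (HoldsN.splitB l28 l29) l30) (HoldsN.splitA (HoldsN.splitB l31 (HoldsN.splitB (HoldsN.splitB l35 l36) l42)) (HoldsN.splitA (HoldsN.splitB (HoldsN.splitB l32 l33) (HoldsN.splitB (HoldsN.splitB l37 l38) l43)) (HoldsN.splitB l34 (HoldsN.splitB (HoldsN.splitB (HoldsN.splitA l39 l40) l41) l44))))) (HoldsN.splitB (HoldsN.splitA (HoldsN.splitB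 (HoldsN.splitB l45 (HoldsN.splitA l46 (HoldsN.splitA (HoldsN.splitB (HoldsN.splitB l47 l48) l49) l50))) l51) (HoldsN.splitB (HoldsN.splitB l52 l53) l54)) (HoldsN.splitB l55 (HoldsN.splitA (HoldsN.splitB (HoldsN.splitA (HoldsN.splitB (HoldsN.splitA l56 (HoldsN.splitA (HoldsN.splitB l57 l58) (HoldsN.splitB l59 l60))) l61) (HoldsN.splitB l62 (HoldsN.splitA (HoldsN.splitB (HoldsN.splitA l63 (HoldsN.splitB l64 l65)) l66) l67))) l68) (HoldsN.splitB (HoldsN.splitB (HoldsN.splitA l69 (HoldsN.splitA l70 l71)) l72) l73))))))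

theorem root2_1 : HoldsN X2 (chamberN 9 22) (chamberNR 9 22) :=
  (HoldsN.splitA (HoldsN.splitB (HoldsN.splitA (HoldsN.splitA (HoldsN.splitB (HoldsN.splitB (HoldsN.splitA l74 (HoldsN.splitB l75 l76)) l77) (HoldsN.splitA l78 (HoldsN.splitB l79 (HoldsN.splitB l80 l81)))) (HoldsN.splitB (HoldsN.splitB l82 (HoldsN.splitA (HoldsN.splitA l83 l84) l85)) l86)) (HoldsN.splitB (HoldsN.splitB (HoldsN.splitA (HoldsN.splitB l87 l88) (HoldsN.splitA (HoldsN.splitB (HoldsN.splitA (HoldsN.splitB l89 l90) (HoldsN.splitA (HoldsN.splitB l91 l92) l93)) (HoldsN.splitB l94 l95)) (HoldsN.splitB l96 l97))) l98) (HoldsN.splitA (HoldsN.splitB l99 (HoldsN.splitB l100 l101)) (HoldsN.splitA (HoldsN.splitB (HoldsN.splitB (HoldsN.splitB l102 l103) l104) (HoldsN.splitB l105 (HoldsN.splitA (HoldsN.splitB l106 l108) (HoldsN.splitB l107 l109)))) (HoldsN.splitB l110 (HoldsN.splitB l111 l112)))))) (HoldsN.splitB l113 (HoldsN.splitA (HoldsN.splitA (HoldsN.splitA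 (HoldsN.splitB (HoldsN.splitB l114 l115) l118) (HoldsN.splitB (HoldsN.splitB l116 l117) l119)) (HoldsN.splitB (HoldsN.splitB l120 (HoldsN.splitA (HoldsN.splitA l121 (HoldsN.splitB l122 l123)) l124)) l125)) (HoldsN.splitA (HoldsN.splitB l126 l130) (HoldsN.splitA (HoldsN.splitB (HoldsN.splitB l127 l128) (HoldsN.splitB (HoldsN.splitB l131 l132) l133)) (HoldsN.splitB l129 l134)))))) (HoldsN.splitA (HoldsN.splitB (HoldsN.splitB (HoldsN.splitB (HoldsN.splitA (HoldsN.splitB l135 (HoldsN.splitA l136 (HoldsN.splitB l137 l138))) (HoldsN.splitA (HoldsN.splitB l139 (HoldsN.splitB l140 l141)) (HoldsN.splitB l142 (HoldsN.splitA l143 (HoldsN.splitB l144 l145))))) l146) (HoldsN.splitA (HoldsN.splitB l147 (HoldsN.splitB l148 l149)) (HoldsN.splitA (HoldsN.splitB l150 (HoldsN.splitB l151 l152)) (HoldsN.splitB l153 (HoldsN.splitB l154 l155))))) (HoldsN.splitA (HoldsN.splitB l156 (HoldsN.splitB (HoldsN.splitB l161 l162) (HoldsN.splitA (HoldsN.splitA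 l169 l170) (HoldsN.splitB l171 l172)))) (HoldsN.splitA (HoldsN.splitB (HoldsN.splitB l157 (HoldsN.splitB l158 l159)) (HoldsN.splitB (HoldsN.splitB (HoldsN.splitA l163 l164) l165) (HoldsN.splitB (HoldsN.splitB (HoldsN.splitA l173 l174) l175) (HoldsN.splitA l176 l177)))) (HoldsN.splitB l160 (HoldsN.splitB (HoldsN.splitB (HoldsN.splitA l166 l167) l168) (HoldsN.splitA l178 (HoldsN.splitB (HoldsN.splitB l179 l180) l181))))))) (HoldsN.splitB (HoldsN.splitA (HoldsN.splitB (HoldsN.splitB l182 (HoldsN.splitA l183 (HoldsN.splitA (HoldsN.splitB (HoldsN.splitB l184 l185) l186) l187))) l188) (HoldsN.splitB (HoldsN.splitB (HoldsN.splitB l189 (HoldsN.splitA l190 l191)) l192) (HoldsN.splitB l193 (HoldsN.splitB l194 l195)))) (HoldsN.splitB l196 (HoldsN.splitA (HoldsN.splitB (HoldsN.splitA (HoldsN.splitB (HoldsN.splitA l197 (HoldsN.splitA (HoldsN.splitB l198 l199) (HoldsN.splitB l200 l201))) l202) (HoldsN.splitB l203 (HoldsN.splitA (HoldsN.splitB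 (HoldsN.splitA l204 (HoldsN.splitB l205 l206)) l207) l208))) l209) (HoldsN.splitB (HoldsN.splitB (HoldsN.splitA l210 (HoldsN.splitA l211 l212)) l213) l214))))))

theorem root3_0 : HoldsN X3 (chamber 1 1) (chamberN 9 22) :=
  (HoldsN.splitA (HoldsN.splitA (HoldsN.splitA (HoldsN.splitB (HoldsN.splitB (HoldsN.splitB (HoldsN.splitA (HoldsN.splitB l215 (HoldsN.splitB l216 l217)) l218) l219) (HoldsN.splitA (HoldsN.splitB l220 (HoldsN.splitB l221 l222)) l223)) (HoldsN.splitA (HoldsN.splitB l238 (HoldsN.splitB (HoldsN.splitB l246 l247) (HoldsN.splitB (HoldsN.splitB l249 l250) l251))) (HoldsN.splitB l239 (HoldsN.splitB l248 l252)))) (HoldsN.splitB (HoldsN.splitB (HoldsN.splitB l224 l225) l226) (HoldsN.splitB l240 (HoldsN.splitB (HoldsN.splitB (HoldsN.splitA l253 (HoldsN.splitA (HoldsN.splitB l254 (HoldsN.splitB l255 l256)) l257)) l258) l259)))) (HoldsN.splitB (HoldsN.splitB (HoldsN.splitB (HoldsN.splitA l227 (HoldsN.splitA l228 (HoldsN.splitB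 l229 (HoldsN.splitA l230 l231)))) l232) (HoldsN.splitA l233 (HoldsN.splitA l234 (HoldsN.splitB l235 (HoldsN.splitB l236 l237))))) (HoldsN.splitA (HoldsN.splitB (HoldsN.splitB l241 (HoldsN.splitB l242 l243)) (HoldsN.splitB (HoldsN.splitB l260 l261) l265)) (HoldsN.splitA (HoldsN.splitB l244 (HoldsN.splitB l262 l266)) (HoldsN.splitB l245 (HoldsN.splitB (HoldsN.splitB l263 l264) (HoldsN.splitA l267 l268))))))) (HoldsN.splitA (HoldsN.splitB l269 (HoldsN.splitB (HoldsN.splitA l270 (HoldsN.splitA l271 l272)) l273)) (HoldsN.splitA (HoldsN.splitB (HoldsN.splitA (HoldsN.splitB (HoldsN.splitB l274 l276) l278) (HoldsN.splitB (HoldsN.splitB l275 l277) l279)) (HoldsN.splitB l283 (HoldsN.splitA (HoldsN.splitB l285 l288) (HoldsN.splitB (HoldsN.splitB l286 l287) l289)))) (HoldsN.splitB (HoldsN.splitB (HoldsN.splitB l280 l281) l282) (HoldsN.splitB l284 l290)))))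

theorem root3_1 : HoldsN X3 (chamber 1 1) (chamberNR 9 22) :=
  (HoldsN.splitA (HoldsN.splitA (HoldsN.splitA (HoldsN.splitB (HoldsN.splitB (HoldsN.splitB l291 l292) (HoldsN.splitA l293 l294)) (HoldsN.splitA (HoldsN.splitB l304 (HoldsN.splitB (HoldsN.splitB l312 l313) l315)) (HoldsN.splitB l305 (HoldsN.splitB l314 l316)))) (HoldsN.splitB (HoldsN.splitB (HoldsN.splitB l295 l296) l297) (HoldsN.splitB l306 (HoldsN.splitB (HoldsN.splitB (HoldsN.splitA l317 (HoldsN.splitA (HoldsN.splitB l318 l319) l320)) l321) l322)))) (HoldsN.splitB (HoldsN.splitB (HoldsN.splitB (HoldsN.splitA l298 l299) l300) (HoldsN.splitA l301 (HoldsN.splitA l302 l303))) (HoldsN.splitA (HoldsN.splitB (HoldsN.splitB l307 (HoldsN.splitB l308 l309)) (HoldsN.splitB (HoldsN.splitB l323 l324) l328)) (HoldsN.splitA (HoldsN.splitB l310 (HoldsN.splitB l325 l329)) (HoldsN.splitB l311 (HoldsN.splitB (HoldsN.splitB l326 l327) l330)))))) (HoldsN.splitA (HoldsN.splitB l331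 (HoldsN.splitB (HoldsN.splitA l332 (HoldsN.splitA l333 l334)) l335)) (HoldsN.splitA (HoldsN.splitB (HoldsN.splitA (HoldsN.splitB (HoldsN.splitB l336 l338) l340) (HoldsN.splitB (HoldsN.splitB l337 l339) l341)) (HoldsN.splitB l345 (HoldsN.splitA (HoldsN.splitB l347 l350) (HoldsN.splitB (HoldsN.splitB l348 l349) l351)))) (HoldsN.splitB (HoldsN.splitB (HoldsN.splitB l342 l343) l344) (HoldsN.splitB l346 (HoldsN.splitB l352 l353))))))

theorem root4_0 : HoldsN X4 (chamber 1 1) (chamberN 9 22) :=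
  (HoldsN.splitA (HoldsN.splitA (HoldsN.splitA (HoldsN.splitB (HoldsN.splitB (HoldsN.splitB (HoldsN.splitA l354 (HoldsN.splitB l355 l356)) l357) (HoldsN.splitA l358 l359)) (HoldsN.splitA (HoldsN.splitB l372 (HoldsN.splitB (HoldsN.splitB l399 l400) l402)) (HoldsN.splitB (HoldsN.splitB l373 l374) (HoldsN.splitB l401 l403)))) (HoldsN.splitB (HoldsN.splitB (HoldsN.splitB l360 l361) l362) (HoldsN.splitB l375 (HoldsN.splitB (HoldsN.splitB l404 l405) l406)))) (HoldsN.splitB (HoldsN.splitB (HoldsN.splitB (HoldsN.splitA (HoldsN.splitB l363 l364) (HoldsN.splitA (HoldsN.splitB l365 l366) l367)) l368) (HoldsN.splitA l369 (HoldsN.splitA l370 l371))) (HoldsN.splitA (HoldsN.splitB (HoldsN.splitB (HoldsN.splitA (HoldsN.splitA l376 l377) (HoldsN.splitA (HoldsN.splitB (HoldsN.splitB l378 l380) l385) (HoldsN.splitB (HoldsN.splitB l379 (HoldsN.splitA (HoldsN.splitB l381 (HoldsN.splitA l382 l383)) l384)) l386))) (HoldsN.splitB l387 (HoldsN.splitA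 l388 (HoldsN.splitB l389 l390)))) (HoldsN.splitB (HoldsN.splitB (HoldsN.splitA (HoldsN.splitA l407 (HoldsN.splitB l408 l409)) l410) l411) (HoldsN.splitA (HoldsN.splitA (HoldsN.splitB l416 l417) l418) (HoldsN.splitB (HoldsN.splitB (HoldsN.splitA l419 (HoldsN.splitA l420 l421)) l422) (HoldsN.splitA l423 (HoldsN.splitA (HoldsN.splitB l424 l425) l426)))))) (HoldsN.splitA (HoldsN.splitB (HoldsN.splitB (HoldsN.splitB (HoldsN.splitB l391 l392) l393) (HoldsN.splitB l394 (HoldsN.splitB l395 l396))) (HoldsN.splitB l412 l427)) (HoldsN.splitB (HoldsN.splitB l397 l398) (HoldsN.splitB (HoldsN.splitB (HoldsN.splitA l413 l414) l415) (HoldsN.splitA l428 l429))))))) (HoldsN.splitA (HoldsN.splitB (HoldsN.splitB (HoldsN.splitB (HoldsN.splitA (HoldsN.splitB l430 l431) (HoldsN.splitA l432 (HoldsN.splitB l433 l434))) l435) (HoldsN.splitA (HoldsN.splitB l436 (HoldsN.splitB l437 l438)) (HoldsN.splitA l439 (HoldsN.splitB l440 (HoldsN.splitB l441 l442)))))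 (HoldsN.splitA (HoldsN.splitB (HoldsN.splitB l443 (HoldsN.splitB l444 l445)) (HoldsN.splitB l452 l455)) (HoldsN.splitA (HoldsN.splitB (HoldsN.splitB l446 (HoldsN.splitB l447 l448)) (HoldsN.splitB l453 l456)) (HoldsN.splitB (HoldsN.splitB l449 (HoldsN.splitB l450 l451)) (HoldsN.splitB l454 l457))))) (HoldsN.splitA (HoldsN.splitB (HoldsN.splitB (HoldsN.splitB l458 (HoldsN.splitA l459 l460)) (HoldsN.splitA l461 l462)) (HoldsN.splitB l466 (HoldsN.splitB (HoldsN.splitA l468 l469) l470))) (HoldsN.splitB (HoldsN.splitB (HoldsN.splitB l463 l464) l465) (HoldsN.splitB l467 (HoldsN.splitB l471 l472))))))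

theorem root4_1 : HoldsN X4 (chamber 1 1) (chamberNR 9 22) :=
  (HoldsN.splitA (HoldsN.splitA (HoldsN.splitA (HoldsN.splitB (HoldsN.splitB (HoldsN.splitB (HoldsN.splitA l473 l474) l475) l476) (HoldsN.splitA (HoldsN.splitB l486 (HoldsN.splitB (HoldsN.splitB l497 l498) l500)) (HoldsN.splitB l487 (HoldsN.splitB l499 l501)))) (HoldsN.splitB (HoldsN.splitB (HoldsN.splitB l477 l478) l479) (HoldsN.splitB l488 (HoldsN.splitB (HoldsN.splitB l502 l503) l504)))) (HoldsN.splitB (HoldsN.splitB (HoldsN.splitB (HoldsN.splitA l480 (HoldsN.splitA l481 l482)) l483) (HoldsN.splitA l484 l485)) (HoldsN.splitA (HoldsN.splitB (HoldsN.splitB l489 (HoldsN.splitB l490 l491)) (HoldsN.splitB (HoldsN.splitB (HoldsN.splitA (HoldsN.splitA l505 (HoldsN.splitB l506 l507)) l508) l509) (HoldsN.splitA l514 l515))) (HoldsN.splitA (HoldsN.splitB (HoldsN.splitB l492 (HoldsN.splitB l493 l494)) (HoldsN.splitB l510 l516)) (HoldsN.splitB (HoldsN.splitB l495 l496)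 (HoldsN.splitB (HoldsN.splitB (HoldsN.splitA l511 l512) l513) l517)))))) (HoldsN.splitA (HoldsN.splitB (HoldsN.splitB (HoldsN.splitB (HoldsN.splitA (HoldsN.splitB l518 l519) (HoldsN.splitA l520 (HoldsN.splitB l521 l522))) l523) (HoldsN.splitA (HoldsN.splitB l524 (HoldsN.splitB l525 l526)) (HoldsN.splitA l527 (HoldsN.splitB l528 (HoldsN.splitB l529 l530))))) (HoldsN.splitA (HoldsN.splitB (HoldsN.splitB l531 (HoldsN.splitB l532 l533)) (HoldsN.splitB l540 l543)) (HoldsN.splitA (HoldsN.splitB (HoldsN.splitB l534 (HoldsN.splitB l535 l536)) (HoldsN.splitB l541 l544)) (HoldsN.splitB (HoldsN.splitB l537 (HoldsN.splitB l538 l539)) (HoldsN.splitB l542 l545))))) (HoldsN.splitA (HoldsN.splitB (HoldsN.splitB (HoldsN.splitB l546 (HoldsN.splitA l547 l548)) l549) (HoldsN.splitB l553 (HoldsN.splitB (HoldsN.splitA l555 l556) l557))) (HoldsN.splitB (HoldsN.splitB (HoldsN.splitB l550 l551) l552) (HoldsN.splitB l554 (HoldsN.splitB l558 l559))))))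

theorem root5_0 : HoldsN X5 (chamber 1 1) (chamberN 9 22) :=
  (HoldsN.splitA (HoldsN.splitA (HoldsN.splitA (HoldsN.splitB (HoldsN.splitB (HoldsN.splitB (HoldsN.splitA l560 (HoldsN.splitB l561 (HoldsN.splitA l562 l563))) l564) (HoldsN.splitA l565 l566)) (HoldsN.splitA (HoldsN.splitB l576 (HoldsN.splitB (HoldsN.splitB l604 l605) l608)) (HoldsN.splitB (HoldsN.splitB l577 (HoldsN.splitB l578 l579)) (HoldsN.splitB (HoldsN.splitB l606 l607) (HoldsN.splitA l609 l610))))) (HoldsN.splitB l567 (HoldsN.splitB l580 l611))) (HoldsN.splitB (HoldsN.splitB (HoldsN.splitB (HoldsN.splitA l568 (HoldsN.splitA (HoldsN.splitB l569 (HoldsN.splitB l570 l571)) l572)) l573) (HoldsN.splitA l574 l575)) (HoldsN.splitA (HoldsN.splitB (HoldsN.splitB (HoldsN.splitA (HoldsN.splitA (HoldsN.splitB l581 l582) l583) (HoldsN.splitB (HoldsN.splitB l584 l585) l586)) (HoldsN.splitB l587 (HoldsN.splitA l588 (HoldsN.splitB l589 l590)))) (HoldsN.splitB (HoldsN.splitB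 (HoldsN.splitA (HoldsN.splitA l612 (HoldsN.splitB l613 (HoldsN.splitB l614 l615))) l616) l617) (HoldsN.splitA (HoldsN.splitA (HoldsN.splitB l623 l624) (HoldsN.splitB l625 l626)) (HoldsN.splitB l627 l628)))) (HoldsN.splitA (HoldsN.splitB (HoldsN.splitB (HoldsN.splitB (HoldsN.splitB l591 (HoldsN.splitA l592 l593)) l594) (HoldsN.splitB l595 (HoldsN.splitB (HoldsN.splitA l596 l597) l598))) (HoldsN.splitB (HoldsN.splitB l618 l619) (HoldsN.splitB (HoldsN.splitB l629 l630) (HoldsN.splitA (HoldsN.splitB l631 l632) l633)))) (HoldsN.splitB (HoldsN.splitB (HoldsN.splitA l599 (HoldsN.splitB l600 l601)) (HoldsN.splitB l602 l603)) (HoldsN.splitB (HoldsN.splitB (HoldsN.splitA l620 l621) l622) (HoldsN.splitA l634 (HoldsN.splitB l635 l636)))))))) (HoldsN.splitA (HoldsN.splitB (HoldsN.splitB (HoldsN.splitB (HoldsN.splitA (HoldsN.splitB l637 l638) (HoldsN.splitA l639 (HoldsN.splitB l640 l641))) l642) (HoldsN.splitA (HoldsN.splitB l643 (HoldsN.splitB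 l644 l645)) (HoldsN.splitA l646 (HoldsN.splitB l647 (HoldsN.splitB l648 l649))))) (HoldsN.splitA (HoldsN.splitB (HoldsN.splitB l650 (HoldsN.splitB l651 l652)) (HoldsN.splitB (HoldsN.splitB l659 l660) l664)) (HoldsN.splitB (HoldsN.splitA (HoldsN.splitB l653 (HoldsN.splitB l654 l655)) (HoldsN.splitB l656 (HoldsN.splitB l657 l658))) (HoldsN.splitB (HoldsN.splitA l661 (HoldsN.splitB l662 l663)) l665)))) (HoldsN.splitA (HoldsN.splitB (HoldsN.splitB (HoldsN.splitB l666 (HoldsN.splitA (HoldsN.splitB l667 l668) l669)) l670) (HoldsN.splitB l674 (HoldsN.splitB (HoldsN.splitA l676 l677) l678))) (HoldsN.splitB (HoldsN.splitB (HoldsN.splitB l671 l672) l673) (HoldsN.splitB l675 (HoldsN.splitB l679 l680))))))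

theorem root5_1 : HoldsN X5 (chamber 1 1) (chamberNR 9 22) :=
  (HoldsN.splitA (HoldsN.splitA (HoldsN.splitA (HoldsN.splitB (HoldsN.splitB (HoldsN.splitB (HoldsN.splitA l681 l682) l683) (HoldsN.splitA l684 l685)) (HoldsN.splitB (HoldsN.splitA l693 (HoldsN.splitB l694 (HoldsN.splitB l695 l696))) (HoldsN.splitB (HoldsN.splitA (HoldsN.splitB l711 l712) (HoldsN.splitB l713 l714)) l715))) (HoldsN.splitB l686 (HoldsN.splitB l697 l716))) (HoldsN.splitB (HoldsN.splitB (HoldsN.splitB (HoldsN.splitA l687 (HoldsN.splitA l688 l689)) l690) (HoldsN.splitA l691 l692)) (HoldsN.splitA (HoldsN.splitB (HoldsN.splitB l698 (HoldsN.splitB l699 l700)) (HoldsN.splitB (HoldsN.splitB (HoldsN.splitA (HoldsN.splitA l717 (HoldsN.splitB l718 (HoldsN.splitB l719 l720))) l721) l722) (HoldsN.splitA (HoldsN.splitA l728 l729) l730))) (HoldsN.splitA (HoldsN.splitB (HoldsN.splitB (HoldsN.splitB (HoldsN.splitB l701 l702) l703) (HoldsN.splitB l704 (HoldsN.splitB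 (HoldsN.splitA l705 l706) l707))) (HoldsN.splitB (HoldsN.splitB l723 l724) l731)) (HoldsN.splitB (HoldsN.splitB l708 (HoldsN.splitB l709 l710)) (HoldsN.splitB (HoldsN.splitB (HoldsN.splitA l725 l726) l727) l732)))))) (HoldsN.splitA (HoldsN.splitB (HoldsN.splitB (HoldsN.splitB (HoldsN.splitA (HoldsN.splitB l733 l734) (HoldsN.splitA l735 l736)) l737) (HoldsN.splitA (HoldsN.splitB l738 (HoldsN.splitB l739 l740)) (HoldsN.splitA (HoldsN.splitB l741 l742) (HoldsN.splitB l743 l744)))) (HoldsN.splitB (HoldsN.splitA (HoldsN.splitB l745 (HoldsN.splitB l746 l747)) (HoldsN.splitA (HoldsN.splitB l748 (HoldsN.splitB l749 l750)) (HoldsN.splitB l751 (HoldsN.splitB l752 l753)))) (HoldsN.splitB (HoldsN.splitA (HoldsN.splitB l754 l755) (HoldsN.splitA l756 (HoldsN.splitB l757 l758))) l759))) (HoldsN.splitA (HoldsN.splitB (HoldsN.splitB (HoldsN.splitB l760 (HoldsN.splitA (HoldsN.splitB l761 l762) l763)) l764) (HoldsN.splitB l768 (HoldsN.splitB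 (HoldsN.splitA l770 l771) l772))) (HoldsN.splitB (HoldsN.splitB (HoldsN.splitB l765 l766) l767) (HoldsN.splitB l769 (HoldsN.splitB l773 l774))))))

theorem root6_0 : HoldsN X6 (chamber 1 1) (chamberN 9 22) :=
  (HoldsN.splitA (HoldsN.splitA (HoldsN.splitA (HoldsN.splitB (HoldsN.splitB (HoldsN.splitB (HoldsN.splitA l775 l776) l777) l778) (HoldsN.splitA (HoldsN.splitB l786 (HoldsN.splitB l822 l825)) (HoldsN.splitB (HoldsN.splitB l787 (HoldsN.splitB l788 l789)) (HoldsN.splitB (HoldsN.splitB l823 l824) l826)))) (HoldsN.splitB l779 (HoldsN.splitB l790 l827))) (HoldsN.splitB (HoldsN.splitB (HoldsN.splitB (HoldsN.splitA l780 (HoldsN.splitA l781 l782)) l783) (HoldsN.splitA l784 l785)) (HoldsN.splitA (HoldsN.splitB (HoldsN.splitB (HoldsN.splitA (HoldsN.splitA (HoldsN.splitB (HoldsN.splitB l791 l792) l793) l794) (HoldsN.splitB (HoldsN.splitB l795 l796) l797)) (HoldsN.splitB l798 (HoldsN.splitA (HoldsN.splitA (HoldsN.splitB l799 l800)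 l801) (HoldsN.splitB (HoldsN.splitA (HoldsN.splitB l802 l803) (HoldsN.splitA l804 l805)) l806)))) (HoldsN.splitB (HoldsN.splitB (HoldsN.splitA (HoldsN.splitA l828 (HoldsN.splitB l829 (HoldsN.splitB l830 l831))) l832) l833) (HoldsN.splitA (HoldsN.splitA l838 l839) l840))) (HoldsN.splitA (HoldsN.splitB (HoldsN.splitB (HoldsN.splitB (HoldsN.splitB l807 (HoldsN.splitA l808 l809)) l810) (HoldsN.splitB l811 (HoldsN.splitB (HoldsN.splitA l812 l813) l814))) (HoldsN.splitB (HoldsN.splitB l834 l835) (HoldsN.splitB l841 (HoldsN.splitA l842 l843)))) (HoldsN.splitB (HoldsN.splitB (HoldsN.splitA l815 (HoldsN.splitB l816 l817)) (HoldsN.splitB l818 (HoldsN.splitA l819 (HoldsN.splitB l820 l821)))) (HoldsN.splitB (HoldsN.splitB l836 l837) (HoldsN.splitA l844 l845))))))) (HoldsN.splitA (HoldsN.splitB (HoldsN.splitB (HoldsN.splitB (HoldsN.splitA (HoldsN.splitB l846 l847) (HoldsN.splitA (HoldsN.splitB l848 l849) (HoldsN.splitB l850 l851))) l852)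 (HoldsN.splitA (HoldsN.splitB l853 (HoldsN.splitB l854 l855)) (HoldsN.splitA (HoldsN.splitB l856 (HoldsN.splitB l857 l858)) (HoldsN.splitB l859 (HoldsN.splitB l860 l861))))) (HoldsN.splitA (HoldsN.splitB (HoldsN.splitB l862 (HoldsN.splitB l863 l864)) (HoldsN.splitB (HoldsN.splitB l872 l873) l877)) (HoldsN.splitA (HoldsN.splitB (HoldsN.splitB l865 (HoldsN.splitB (HoldsN.splitA l866 l867) l868)) (HoldsN.splitB l874 l878)) (HoldsN.splitB (HoldsN.splitB l869 (HoldsN.splitB l870 l871)) (HoldsN.splitB (HoldsN.splitB l875 l876) l879))))) (HoldsN.splitA (HoldsN.splitB (HoldsN.splitB (HoldsN.splitB l880 (HoldsN.splitA l881 (HoldsN.splitA (HoldsN.splitB l882 l883) l884))) l885) (HoldsN.splitB l889 (HoldsN.splitB (HoldsN.splitA (HoldsN.splitB l892 l893) (HoldsN.splitB l894 (HoldsN.splitA (HoldsN.splitB l895 l896) l897))) l898))) (HoldsN.splitB (HoldsN.splitB (HoldsN.splitB l886 l887) l888) (HoldsN.splitB (HoldsN.splitB l890 l891) (HoldsN.splitB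 (HoldsN.splitB l899 l900) l901))))))

theorem root6_1 : HoldsN X6 (chamber 1 1) (chamberNR 9 22) :=
  (HoldsN.splitA (HoldsN.splitA (HoldsN.splitA (HoldsN.splitB (HoldsN.splitB (HoldsN.splitB (HoldsN.splitA l902 l903) l904) l905) (HoldsN.splitB (HoldsN.splitA l914 (HoldsN.splitB l915 (HoldsN.splitB l916 l917))) (HoldsN.splitB (HoldsN.splitA l941 (HoldsN.splitB l942 l943)) l944))) (HoldsN.splitB (HoldsN.splitB l906 l907) (HoldsN.splitB l918 l945))) (HoldsN.splitB (HoldsN.splitB (HoldsN.splitB (HoldsN.splitA l908 (HoldsN.splitA l909 l910)) l911) (HoldsN.splitA l912 l913)) (HoldsN.splitA (HoldsN.splitB (HoldsN.splitB (HoldsN.splitA (HoldsN.splitA l919 l920) (HoldsN.splitB (HoldsN.splitB l921 l922) l923)) (HoldsN.splitB l924 (HoldsN.splitA l925 (HoldsN.splitB (HoldsN.splitA (HoldsN.splitB l926 l927) (HoldsN.splitA l928 l929)) l930)))) (HoldsN.splitB (HoldsN.splitB (HoldsN.splitA (HoldsN.splitA l946 l947) l948) l949) (HoldsN.splitA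 l954 (HoldsN.splitB l955 l956)))) (HoldsN.splitA (HoldsN.splitB (HoldsN.splitB (HoldsN.splitB (HoldsN.splitB l931 l932) l933) (HoldsN.splitB l934 (HoldsN.splitB (HoldsN.splitA l935 l936) l937))) (HoldsN.splitB (HoldsN.splitB l950 l951) l957)) (HoldsN.splitB (HoldsN.splitB l938 (HoldsN.splitB l939 l940)) (HoldsN.splitB (HoldsN.splitB l952 l953) l958)))))) (HoldsN.splitA (HoldsN.splitB (HoldsN.splitB (HoldsN.splitB (HoldsN.splitA (HoldsN.splitB l959 l960) (HoldsN.splitA (HoldsN.splitB l961 l962) (HoldsN.splitB l963 l964))) l965) (HoldsN.splitA (HoldsN.splitB l966 (HoldsN.splitB l967 l968)) (HoldsN.splitA (HoldsN.splitB l969 (HoldsN.splitB l970 l971)) (HoldsN.splitB l972 (HoldsN.splitB l973 l974))))) (HoldsN.splitA (HoldsN.splitB (HoldsN.splitB l975 (HoldsN.splitB l976 l977)) (HoldsN.splitB (HoldsN.splitB l985 l986) l990)) (HoldsN.splitA (HoldsN.splitB (HoldsN.splitB l978 (HoldsN.splitB (HoldsN.splitA l979 l980) l981)) (HoldsN.splitB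 l987 l991)) (HoldsN.splitB (HoldsN.splitB l982 (HoldsN.splitB l983 l984)) (HoldsN.splitB (HoldsN.splitB l988 l989) l992))))) (HoldsN.splitA (HoldsN.splitB (HoldsN.splitB (HoldsN.splitB l993 (HoldsN.splitA l994 (HoldsN.splitA (HoldsN.splitB l995 l996) l997))) l998) (HoldsN.splitB l1002 (HoldsN.splitB (HoldsN.splitA (HoldsN.splitB l1006 l1007) (HoldsN.splitB l1008 (HoldsN.splitA (HoldsN.splitB l1009 l1010) l1011))) l1012))) (HoldsN.splitB (HoldsN.splitB (HoldsN.splitB l999 l1000) l1001) (HoldsN.splitB (HoldsN.splitB l1003 (HoldsN.splitB l1004 l1005)) (HoldsN.splitB (HoldsN.splitB l1013 l1014) l1015))))))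

theorem merge2 (a c : Tp) (ha : InSx 1 a) (hc : InSx 1 c) :
    KT (potL X2.Lc) (sc ss a) (sc ss c) ≤ X2.rhs (sc ss a) (sc ss c) :=
  KT_le_all2 (by norm_num) (by norm_num) root2_0 root2_1 a c ha hc

theorem merge3 (a c : Tp) (ha : InSx 1 a) (hc : InSx 1 c) :
    KT (potL X3.Lc) a (sc ss c) ≤ X3.rhs a (sc ss c) :=
  KT_le_all (by norm_num) (by norm_num) root3_0 root3_1 a c ha hc

theorem merge4 (a c : Tp) (ha : InSx 1 a) (hc : InSx 1 c) :
    KT (potL X4.Lc) a (sc ss c) ≤ X4.rhs a (sc ss c) :=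
  KT_le_all (by norm_num) (by norm_num) root4_0 root4_1 a c ha hc

theorem merge5 (a c : Tp) (ha : InSx 1 a) (hc : InSx 1 c) :
    KT (potL X5.Lc) a (sc ss c) ≤ X5.rhs a (sc ss c) :=
  KT_le_all (by norm_num) (by norm_num) root5_0 root5_1 a c ha hc

theorem merge6 (a c : Tp) (ha : InSx 1 a) (hc : InSx 1 c) :
    KT (potL X6.Lc) a (sc ss c) ≤ X6.rhs a (sc ss c) :=
  KT_le_all (by norm_num) (by norm_num) root6_0 root6_1 a c ha hc


end

end Vale.Agent.Lib.P154N.D6
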